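import Vale.Agent.P215Z.Frm.Defs2
import Vale.Agent.P215Z.Grid.Defs

/-!
# P215: the region, its sheets, sources and walls
-/

noncomputable section

namespace Vale.Agent.P215Z

open MvPolynomial Classical

/-- the refined map: vertices to cubes, midpoints to three-cells, centres to two-cells -/
def ref (F : Gp → Pt) (r : Gp) : Pt :=
  if Even r.1 ∧ Even r.2 then cell (F (r.1 / 2, r.2 / 2))
  else if Even r.2 then F (r.1 / 2, r.2 / 2) + F (r.1 / 2 + 1, r.2 / 2) + 1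
  else if Even r.1 then F (r.1 / 2, r.2 / 2) + F (r.1 / 2, r.2 / 2 + 1) + 1
  else if F (r.1 / 2, r.2 / 2) = F (r.1 / 2 + 1, r.2 / 2 + 1) then
    F (r.1 / 2 + 1, r.2 / 2) + F (r.1 / 2, r.2 / 2 + 1) + 1
  else F (r.1 / 2, r.2 / 2) + F (r.1 / 2 + 1, r.2 / 2 + 1) + 1

/-- the coarse vertex of a refined face -/
def crn (f : Gp) : Gp := ((f.1 + 1) / 2, (f.2 + 1) / 2)
/-- the coarse square which contains a refined face -/
def sqOf (f : Gp) : Gp := (f.1 / 2, f.2 / 2)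
def ctr (Q : Gp) : Gp := (2 * Q.1 + 1, 2 * Q.2 + 1)

/-- the wall inside the boundary of the standard cube -/
def V0 (i : Fin 3) (n : ℕ) : Set Pt :=
  {p | p ∈ KdQ n ∧ ∃ j, j ≠ kap i ∧ j ≠ 3 ∧ (p j = 0 ∨ p j = 2 * n)}

/-- the extra curve -/
def oP (n : ℕ) (i : Fin 3) (k : ℕ) : Pt := fun j =>
  if j = kap i then (if k + 1 ≤ 8 * n then bdG (2 * n) (k + 1) else (1, 0)).1
  else if j = 3 then (if k + 1 ≤ 8 * n then bdG (2 * n) (k + 1) else (1, 0)).2 else 1

def dirOf (a : Pt) : Fin 4 := if h : ∃ k, a k ≠ 0 then h.choose else 0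

structure Setup where
  D : DiscData
  g : LabGrid F3
  hm : g.m = 2 * D.M
  hlab : ∀ f, g.lab f = D.reg (crn f)
  hdir : ∀ x y, g.dir x y ↔ ∃ i, x = y * FreeGroup.of i
  cv : g.Curves
  col : cv.C → Fin 3
  hcol : ∀ c, cv.labS (cv.shL c) = cv.labS (cv.shR c) * FreeGroup.of (col c)
  prim : cv.C → List Pt
  prim_head : ∀ c, (prim c).head? = some 0
  prim_last : ∀ c, (prim c).getLast? = some (wv
    (ref (D.F (cv.labS (cv.shR c))) (cv.vx c 0) - (2 * D.N : ℤ) • org (col c, true)))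
  prim_chain : ∀ c, (prim c).IsChain (PAdj (V0 (col c) (3 * D.N)))
  base : cv.S → Gp
  wk : cv.S → Gp → List Gp
  hwk : ∀ P r, cv.PV P r → cv.PV P (base P) ∧ cv.Walks P (base P) (wk P)
  hbase : ∀ P c, cv.par P = some c → base P = cv.vx c 0

namespace Setup
variable (s : Setup)

abbrev n : ℕ := 3 * s.D.N
def FF (P : s.cv.S) (r : Gp) : Pt := ref (s.D.F (s.cv.labS P)) r
/-- the four-cell of a refined face -/
def cube (f : Gp) : Pt := cell (s.D.F (s.D.reg (crn f)) (crn f))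
def mkS (P : s.cv.S) : Mk := Sum.inl (s.cv.labS P)⁻¹

def L : Letters where
  C := fun i => {c : s.cv.C // s.col c = i}
  fin := fun _ => inferInstance
  dec := fun _ => inferInstance
  mark := fun _ c => (s.cv.labS (s.cv.shR c.1))⁻¹
  own := fun _ c => !s.cv.ins c.1
  level := fun _ c => s.cv.lev c.1

def stdP (c : s.cv.C) (k : ℕ) : Pt :=
  ref (s.D.F (s.cv.labS (s.cv.shR c))) (s.cv.vx c k) - (2 * s.D.N : ℤ) • org (s.col c, true)

def CS (i : Fin 3) : CurveSys (Option (s.L.C i)) where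
  per := fun c => c.elim (8 * s.n) fun c => s.cv.per c.1
  pt := fun c => c.elim (oP s.n i) fun c => s.stdP c.1
  prim := fun c => c.elim [0] fun c => s.prim c.1

def shS (c : s.cv.C) (side : Bool) : s.cv.S := if side then s.cv.shR c else s.cv.shL c
def Nondeg (P : s.cv.S) (Q : Gp) : Prop :=
  let F := s.D.F (s.cv.labS P)
  F (Q + (1, 0)) ≠ F Q ∧ F (Q + (0, 1)) ≠ F Q ∧
    F (Q + (1, 1)) - F (Q + (0, 1)) = F (Q + (1, 0)) - F Q ∧
    ∀ k, F (Q + (1, 0)) k = F Q k ∨ F (Q + (0, 1)) k = F Q k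

variable {O : Type} [CommRing O] [Algebra ℚ O] (x : ∀ l : Lg, Option (s.L.C l.1) → M2 O)

def UU (A : F1 O) (P : s.cv.S) (r r' : Gp) : (MM O)ˣ := step A (s.FF P r) (s.FF P r')

def whR (A : F1 O) (c : s.cv.C) (side : Bool) : (MM O)ˣ :=
  holL (pe A) ((s.prim c).map (dm s.D.N (s.col c, side))) *
    holN (step A) (fun k => dm s.D.N (s.col c, side) (upTo (s.stdP c 0) k)) 4

def HR (A : F1 O) (c : s.cv.C) (side : Bool) : (MM O)ˣ :=
  s.whR A c side * holN (s.UU A (s.shS c side)) (s.cv.vx c) (s.cv.per c) * (s.whR A c side)⁻¹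

def src (P : s.cv.S) : M2 O :=
  (s.cv.par P).elim 0 fun c => x (s.col c, !s.cv.ins c) (some ⟨c, rfl⟩)

def lam (A : F1 O) (P : s.cv.S) (r : Gp) : (MM O)ˣ :=
  (s.cv.par P).elim 1 (fun c => s.whR A c (!s.cv.ins c)) * holL (s.UU A P) (s.wk P r)

def eta (A : F1 O) (P : s.cv.S) (r : Gp) : MM O := Ad (s.lam A P r) (cst (s.src x P))

/-- the value of a curve seen from its outer sheet -/
def nv (A : F1 O) (c : s.cv.C) : M2 O :=
  at0 (Ad (s.lam A (s.shS c (s.cv.ins c)) (s.cv.vx c 0) * (s.whR A c (s.cv.ins c))⁻¹)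
    (cst (s.src x (s.shS c (s.cv.ins c)))))

def nu (A : F1 O) (c : s.cv.C) : M2 O := ⁅s.nv x A c, (at0U (s.HR A c (s.cv.ins c)) : M2 O)⁆

def MR (A : F1 O) : Ideal O := Ideal.span {f | ∃ c a a', f = s.nu x A c a a'}

def Xv (A : F1 O) (l : Lg) : Option (s.L.C l.1) → M2 O := fun c =>
  if s.L.cown l c then x l c else c.elim 0 fun c => s.nv x A c.1

def itR (A : F1 O) (y : s.cv.S × (sqs s.D.M)) : Item O :=
  let F := s.D.F (s.cv.labS y.1)
  let a := F (y.2.1 + (1, 0)) - F y.2.1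
  let b := F (y.2.1 + (0, 1)) - F y.2.1
  { σ := s.FF y.1 (ctr y.2.1), k := dirOf a, l := dirOf b,
    o := if s.Nondeg y.1 y.2.1 ∧ s.cv.PV y.1 (ctr y.2.1) then a (dirOf a) * b (dirOf b) else 0,
    Y := at0 (s.eta x A y.1 (ctr y.2.1)) }

def JR (A : F1 O) : F2 O := JJ A (s.itR x A)

def itB (B : F1 O) (y : Fin 3 × Fin (s.n + 1)) : Item O :=
  { σ := dm s.D.N (y.1, true) fun j => if j = kap y.1 then 2 * (y.2 : ℕ) else if j = 3 then 0 else 1,
    k := kap y.1, l := 3, o := 1,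
    Y := at0 (Ad (holN (pe B) (fun t => dm s.D.N (y.1, true) ((2 * t : ℤ) • ee (kap y.1))) y.2)
      (cst (x (y.1, true) none))) }

def JB (B : F1 O) : F2 O := fun p i j =>
  if i = 3 ∨ j = 3 then 0 else JJ B (s.itB x B) (Function.update p 3 0) i j

structure Pair (a : Ideal O) (A B : F1 O) : Prop where
  gA : Good1 (KR s.D.N) A
  gB : Good1 (KB s.D.N) B
  inv : Inv1 B
  agree : Agree1 (KS s.D.N) A B
  iA : In1 (KR s.D.N) a A
  iB : In1 (KB s.D.N) a B

def Sol (A B : F1 O) (b : Ideal O) : Prop :=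
  In2 (KR s.D.N) b (curv A - s.JR x A) ∧ In2 (KB s.D.N) b (curv B - s.JB x B)

/-- the connection on the boundary of the cube of a leg, in standard coordinates -/
def Al (A B : F1 O) (l : Lg) : F1 O := fun p i =>
  if p ∈ V0 l.1 s.n then pull (prm l) ((s.D.N : ℤ) • org l) A p i
  else pull (prm l) ((s.D.N : ℤ) • org l) B p i

def zz (A B : F1 O) (l : Lg) : M2 O :=
  if l.2 then x l none else lg (at0U ((s.CS l.1).H (s.Al A B l) none) : M2 O)

def ZI (A B : F1 O) (i : Fin 3) : Ideal O := Ideal.span {f | ∃ b a a', f = s.zz x A B (i, b) a a'}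

end Setup

def Rf (N : ℕ) : Finset Pt :=
  (Fintype.piFinset fun j => Finset.Ico (0 : ℤ) (N * boxHi j)).filter fun q => q ∈ Rc N
def Bf (N : ℕ) : Finset Pt :=
  (Fintype.piFinset fun j => Finset.Ico (0 : ℤ) (N * boxHi j)).filter fun q => q ∈ Bc N

end Vale.Agent.P215Z
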