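import Vale.Agent.P215Z.Reg.Stokes.A
import Vale.Agent.P215Z.Reg.Stokes.B

/-!
# P215: Stokes on the region and on the sheets
-/

noncomputable section
namespace Vale.Agent.P215Z
open MvPolynomial Classical

namespace Setup
variable (s : Setup) {O : Type} [CommRing O] [Algebra ℚ O] (m : Marked O Mk)
  {x : ∀ l : Lg, Option (s.L.C l.1) → M2 O}
  (hx : ∀ l c, s.L.cown l c = true → InC (m.ii (s.L.cmark l c)) (x l c))
  {A B : F1 O} (hp : s.Pair m.a A B)

namespace StC

theorem itg_ren {a : Ideal O} (ha : IsNilpotent a) (π : Equiv.Perm (Fin 4)) (y : M2 O)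
    {g : (MM O)ˣ} (hg : g ∈ UG a) :
    itg (cst y * lg (renU π g : MM O)).trace = itg (cst y * lg (g : MM O)).trace := by
  have h := map_lg (Fm.rnM (O := O) π) (g : MM O) (InC.isNilpotent (Fm.isNilpotent_map _ ha) hg)
  have h' : lg (renU π g : MM O) = renM π (lg (g : MM O)) := h.symm
  rw [h', ← renM_cst π y, ← renM_mul, trace_renM, itg_rename, renM_cst]

theorem sum_legs {M : Type} [AddCommMonoid M] (F : ∀ l : Lg, s.L.C l.1 → M) :
    ∑ l : Lg, ∑ c, F l c = ∑ c, ∑ side : Bool, F (s.col c, side) ⟨c, rfl⟩ := by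
  rw [Fintype.sum_prod_type, ← (Equiv.sigmaFiberEquiv s.col).sum_comp
    fun c => ∑ side : Bool, F (s.col c, side) ⟨c, rfl⟩, Fintype.sum_sigma]
  refine Finset.sum_congr rfl fun i _ => ?_
  change ∑ y : Bool, ∑ c : s.L.C i, F (i, y) c = _
  rw [Finset.sum_comm]
  refine Finset.sum_congr rfl fun c _ => ?_
  obtain ⟨c, rfl⟩ := c
  rfl

end StC

include hx hp
/-- R5c -/
theorem sum_SS (hs : s.Sol x A B (s.MR x A)) : ∃ w : s.cv.C → M2 O,
    (∀ c, InC (s.MR x A) ⁅s.nv x A c, w c⁆) ∧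
    ∑ l : Lg, Letters.sg l • (s.CS l.1).SS s.n (s.Al A B l) (s.Xv x A l) -
      ∑ c, Matrix.trace (s.nu x A c * w c) ∈ s.MR x A ^ 2 := by
  obtain ⟨w, h1, h2⟩ := s.sheet_stokes m hx hp hs
  have h3 := s.pont_faces m hx hp hs
  have h4 := s.CS_chain hp
  rw [s.CS_B hp, sub_zero] at h4
  have h0 : ∀ l : Lg, itg (Matrix.trace (cst (s.Xv x A l none) *
      lg ((s.CS l.1).H (s.Al A B l) none : MM O))) = 0 := by
    rintro ⟨i, _ | _⟩
    · have e : s.Xv x A (i, false) none = 0 := rfl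
      rw [e, StB.cst_eq, map_zero, zero_mul, Matrix.trace_zero, map_zero]
    · rw [s.H_none hp m.nil, Units.val_one, lg_one, mul_zero, Matrix.trace_zero, map_zero]
  have h5 : ∑ l : Lg, Letters.sg l • (s.CS l.1).SS s.n (s.Al A B l) (s.Xv x A l) =
      P215Z.CS (Rf s.D.N) A - 2 * ∑ c, ∑ side : Bool, Letters.sg (s.col c, side) •
        itg (Matrix.trace (cst (s.Xv x A (s.col c, side) (some ⟨c, rfl⟩)) *
          lg (s.HR A c side : MM O))) := by
    have e := StC.sum_legs s fun l c => Letters.sg l • itg (Matrix.trace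
      (cst (s.Xv x A l (some c)) * lg ((s.CS l.1).H (s.Al A B l) (some c) : MM O)))
    have e2 : ∀ c side, itg (Matrix.trace (cst (s.Xv x A (s.col c, side) (some ⟨c, rfl⟩)) *
        lg ((s.CS (s.col c)).H (s.Al A B (s.col c, side)) (some ⟨c, rfl⟩) : MM O))) =
        itg (Matrix.trace (cst (s.Xv x A (s.col c, side) (some ⟨c, rfl⟩)) *
          lg (s.HR A c side : MM O))) := fun c side => by
      rw [s.H_some hp m.nil, StC.itg_ren m.nil _ _ (s.HR_mem m hp c side)]
    simp only [e2] at e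
    rw [h4, ← e, Finset.mul_sum, ← Finset.sum_sub_distrib]
    refine Finset.sum_congr rfl fun l _ => ?_
    rw [CurveSys.SS, Fintype.sum_option, h0, zero_add, smul_sub, ← Finset.smul_sum, mul_smul_comm]
  refine ⟨fun c => (2 : O) • w c, fun c => ?_, ?_⟩
  · convert (h1 c).smul 2 using 1
    simp only [Ring.lie_def, smul_sub, mul_smul_comm, smul_mul_assoc]
  · simp only [mul_smul_comm, Matrix.trace_smul, ← Finset.smul_sum]
    rw [h5, smul_eq_mul]
    convert add_mem h3 (Ideal.mul_mem_left _ 2 h2) using 1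
    ring

end Setup
end Vale.Agent.P215Z
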