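import Vale.Agent.P215Z.Reg.Exist
import Vale.Agent.P215Z.Reg.Crit
import Vale.Agent.P215Z.Reg.Stokes
import Vale.Agent.P215Z.Reg.Root
import Vale.Agent.P215Z.Wall.Main
import Vale.Agent.P215Z.Abs.Abs
import Vale.Agent.P215Z.Reg.Final.A

noncomputable section
namespace Vale.Agent.P215Z
open MvPolynomial Classical

namespace Fin7

variable (s : Setup)

/-- the variable of a curve on the leg where it is not own -/
def vE (c : s.cv.C) (b : I2) : s.L.Var := ⟨(s.col c, s.cv.ins c), (some ⟨c, rfl⟩, b)⟩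

theorem vown_vE (c : s.cv.C) (b : I2) : s.L.vown (vE s c b) = false := by
  change (if s.cv.ins c = true then !s.cv.ins c else !!s.cv.ins c) = false
  cases s.cv.ins c <;> rfl

theorem env_cases {v : s.L.Var} (h : s.L.vown v = false) :
    v.2.1 = none ∨ ∃ c b, v = vE s c b := by
  obtain ⟨⟨i, t⟩, c, b⟩ := v
  cases c with
  | none => exact Or.inl rfl
  | some c =>
    obtain ⟨c, hc⟩ := c
    refine Or.inr ⟨c, b, ?_⟩
    have : t = s.cv.ins c := by
      change (if t = true then !s.cv.ins c else !!s.cv.ins c) = false at h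
      revert h
      cases t <;> cases s.cv.ins c <;> simp
    subst this
    change s.col c = i at hc
    subst hc
    rfl

theorem vE_inj {c c' : s.cv.C} {b b' : I2} (h : vE s c b = vE s c' b') : (c, b) = (c', b') := by
  have h1 := congrArg (fun v : s.L.Var => (v.2.1.map Subtype.val, v.2.2)) h
  exact Prod.ext (Option.some.inj (Prod.mk.inj h1).1) (Prod.mk.inj h1).2

/-- own variables become constants, the other ones stay variables -/
def kp : s.L.P →ₐ[ℚ] MvPolynomial (s.cv.C × I2) (Oq s.L) :=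
  aeval fun v => if s.L.vown v then C (pr s.L (X v)) else v.2.1.elim 0 fun c => X (c.1, v.2.2)

theorem kp_vE (c : s.cv.C) (b : I2) : kp s (X (vE s c b)) = X (c, b) := by
  rw [kp, aeval_X, vown_vE]
  rfl

theorem pderiv_kp (c : s.cv.C) (b : I2) (f : s.L.P) :
    pderiv (c, b) (kp s f) = kp s (pderiv (vE s c b) f) := by
  have hX : ∀ v, pderiv (c, b) (kp s (X v)) = kp s (pderiv (vE s c b) (X v)) := by
    intro v
    by_cases h : s.L.vown v = true
    · rw [kp, aeval_X, if_pos h, pderiv_C, pderiv_X_of_ne, map_zero]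
      rintro rfl
      rw [vown_vE] at h
      cases h
    · rcases env_cases s (Bool.eq_false_iff.2 h) with h1 | ⟨c', b', rfl⟩
      · rw [kp, aeval_X, if_neg h, h1, pderiv_X_of_ne, map_zero]
        · exact map_zero _
        · rintro rfl
          cases h1
      · rw [kp_vE]
        by_cases e : (c', b') = (c, b)
        · obtain ⟨rfl, rfl⟩ := Prod.mk.inj e
          rw [pderiv_X_self, pderiv_X_self, map_one]
        · rw [pderiv_X_of_ne e, pderiv_X_of_ne fun e' => e (vE_inj s e'), map_zero]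
  induction f using MvPolynomial.induction_on with
  | C a => rw [pderiv_C, map_zero, algHom_C, MvPolynomial.algebraMap_apply, pderiv_C]
  | add p q hp hq => simp only [map_add, hp, hq]
  | mul_X p v hp => simp only [map_mul, pderiv_mul, map_add, hp, hX]

/-- the values of the letters of a leg -/
def Xn (n : s.cv.C → M2 (Oq s.L)) (l : Lg) : Option (s.L.C l.1) → M2 (Oq s.L) := fun c =>
  if s.L.cown l c then xx s.L l c else c.elim 0 fun c => n c.1

theorem val_inc (n : s.cv.C → M2 (Oq s.L)) (l : Lg) (f : MvPolynomial (s.L.WV l.1) ℚ) :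
    Abs.val n (kp s (s.L.inc l f)) = evX (Xn s n l) f := by
  have : (Abs.val n).comp ((kp s).toRingHom.comp (s.L.inc l).toRingHom) =
      (evX (Xn s n l)).toRingHom := by
    refine ringHom_ext (fun r => RingHom.map_rat_algebraMap
      ((Abs.val n).comp ((kp s).toRingHom.comp (s.L.inc l).toRingHom)) r |>.trans
      (RingHom.map_rat_algebraMap (evX (Xn s n l)).toRingHom r).symm) fun w => ?_
    obtain ⟨c, a, b⟩ := w
    change Abs.val n (kp s (s.L.inc l (X _))) = evX (Xn s n l) (X _)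
    rw [Letters.inc, rename_X, kp, aeval_X, evX, aeval_X, Xn]
    change Abs.val n (if s.L.cown l c then _ else _) = _
    split_ifs
    · exact eval_C _
    · cases c
      · exact map_zero _
      · exact eval_X _
  exact congrArg (fun g : _ →+* _ => g f) this

theorem val_smul (n : s.cv.C → M2 (Oq s.L)) (r : ℚ) (f : s.L.P) :
    Abs.val n (kp s (r • f)) = r • Abs.val n (kp s f) := by
  rw [map_smul, Algebra.smul_def, Algebra.smul_def, map_mul, RingHom.map_rat_algebraMap]

theorem pr_sub (n : s.cv.C → M2 (Oq s.L)) (ñ : s.L.Var → s.L.P)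
    (h0 : ∀ v, v.2.1 = none → ñ v = 0) (h1 : ∀ c b, pr s.L (ñ (vE s c b)) = n c b.1 b.2)
    (f : s.L.P) : pr s.L (s.L.sub ñ f) = Abs.val n (kp s f) := by
  have : (pr s.L).comp (s.L.sub ñ).toRingHom = (Abs.val n).comp (kp s).toRingHom := by
    refine ringHom_ext (fun r => RingHom.map_rat_algebraMap
      ((pr s.L).comp (s.L.sub ñ).toRingHom) r |>.trans
      (RingHom.map_rat_algebraMap ((Abs.val n).comp (kp s).toRingHom) r).symm) fun v => ?_
    change pr s.L (s.L.sub ñ (X v)) = Abs.val n (kp s (X v))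
    rw [Letters.sub, aeval_X]
    split_ifs with h
    · rw [kp, aeval_X, if_pos h]
      exact (eval_C _).symm
    · rcases env_cases s (Bool.eq_false_iff.2 h) with h2 | ⟨c, b, rfl⟩
      · rw [h0 v h2, kp, aeval_X, if_neg h, h2, map_zero]
        exact (map_zero _).symm
      · rw [h1, kp_vE, Abs.val, eval_X]
  exact congrArg (fun g : _ →+* _ => g f) this

theorem cmark_side (c : s.cv.C) (t : Bool) :
    s.L.cmark (s.col c, t) (some ⟨c, rfl⟩) = s.mkS (s.shS c t) := by
  cases t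
  · simp only [Letters.cmark, Setup.L, Setup.mkS, Setup.shS, Bool.false_eq_true, if_false]
    rw [s.hcol c, mul_inv_rev]
  · rfl

theorem labS_root : s.cv.labS s.cv.root = 1 := by
  have hm := s.g.hm
  have h1 : InSq s.g.m (0, 0) := by
    simp only [InSq]
    omega
  rw [← s.cv.sh_bd _ h1 (Or.inl rfl), s.cv.lab_sh _ h1, s.hlab]
  exact (s.D.bd _ ⟨by simp [InG, crn], Or.inl (by simp [crn])⟩).1

theorem nv_low (A : F1 (Oq s.L)) (c : s.cv.C) :
    InC ((s.L.Low (vE s c (0, 0))).map (pr s.L)) (s.nv (xx s.L) A c) := by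
  refine InI.at0 (InC.Ad ((inI_cst _ _).2 ?_) _)
  unfold Setup.src
  cases h : s.cv.par (s.shS c (s.cv.ins c)) with
  | none => exact InC.zero
  | some c' =>
    intro a b
    refine Ideal.mem_map_of_mem _ (Ideal.subset_span
      ⟨⟨(s.col c', !s.cv.ins c'), (some ⟨c', rfl⟩, (a, b))⟩, ?_, s.cv.lev_lt c c' h, rfl⟩)
    change s.L.cmark (s.col c', !s.cv.ins c') (some ⟨c', rfl⟩) =
      s.L.cmark (s.col c, s.cv.ins c) (some ⟨c, rfl⟩)
    rw [cmark_side, cmark_side, (s.cv.par_iff _ _).1 h, Setup.shS]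
    cases s.cv.ins c' <;> rfl

theorem Xv_mkl (A : F1 (Oq s.L)) (l : Lg) (c : Option (s.L.C l.1)) :
    InC ((mkl s.L l).ii (s.L.cmark (l.1, true) c)) (s.Xv (xx s.L) A l c) := by
  cases c with
  | some c =>
    rw [mkl_some]
    exact s.Xv_mem (mkd s.L) (fun l c _ => xx_mem s.L l c) A l _
  | none =>
    obtain ⟨i, _ | _⟩ := l
    · exact InC.zero
    · exact xx_mem s.L _ _

theorem aux1 {O : Type} [CommRing O] [Algebra ℚ O] {J : Ideal O} {x y : O} (r : ℚ)
    (h : x + 2 * y ∈ J) : r • x - (-2 * r) • y ∈ J := by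
  rw [mul_comm, mul_smul, ← smul_sub, neg_smul, sub_neg_eq_add, Algebra.smul_def, Algebra.smul_def,
    map_ofNat]
  exact J.mul_mem_left _ h

theorem aux2 {O : Type} [CommRing O] [Algebra ℚ O] {J : Ideal O} {f g : Lg → O} {T : O} (r : Lg → ℚ)
    (h : ∑ l, r l • f l - T ∈ J) (h' : ∀ l, f l - g l ∈ J) : ∑ l, r l • g l - T ∈ J := by
  have h1 : ∑ l, r l • (f l - g l) ∈ J := Ideal.sum_mem _ fun l _ => by
    rw [Algebra.smul_def]
    exact J.mul_mem_left _ (h' l)
  have h2 := J.sub_mem h h1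
  simp only [smul_sub, Finset.sum_sub_distrib] at h2
  rwa [sub_sub_sub_cancel_left] at h2

end Fin7

open Fin7

/-! R7: the geometric statement -/
namespace Setup
theorem geo (s : Setup) : s.L.Geo := by
  have hx : ∀ l c, s.L.cown l c = true →
      InC ((mkd s.L).ii (s.L.cmark l c)) (xx s.L l c) := fun l c _ => xx_mem s.L l c
  obtain ⟨A, B, hp, hs⟩ := s.exists_sol (mkd s.L) hx
  have hn : 0 < s.n := by
    have := s.D.hN
    unfold Setup.n
    omega
  choose φ hφ _ hw using fun i => CurveSys.wall hn (s.CS_valid i)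
  have ha := (mkd s.L).nil
  set R := s.MR (xx s.L) A with hR
  have hW := fun l : Lg => hw l.1 (Oq s.L) (mkl s.L l) (s.Xv (xx s.L) A l) (s.Al A B l) R
    (Xv_mkl s A l) (s.Al_good hp l) (s.Al_in hp l) (s.crit (mkd s.L) hx hp hs l)
  obtain ⟨w, hw1, hw2⟩ := s.sum_SS (mkd s.L) hx hp hs
  set Ψ := kp s (s.L.Psi φ) with hΨ
  set h : s.cv.C → M2 (Oq s.L) := fun c => at0U (s.HR A c (s.cv.ins c)) with hh
  have hh1 : ∀ c, InC (mkd s.L).a (h c - 1) := by
    intro c
    have := InI.at0 (mem_UG.1 (s.HR_mem (mkd s.L) hp c (s.cv.ins c)))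
    rwa [show at0 ((s.HR A c (s.cv.ins c) : MM (Oq s.L)) - 1) = h c - 1 from
      (map_sub (RingHom.mapMatrix constantCoeff) _ _).trans
        (congrArg _ (map_one (RingHom.mapMatrix constantCoeff)))] at this
  have hgr : ∀ n c i j, Abs.grad Ψ n c i j = Abs.val n (kp s (pderiv (vE s c (j, i)) (s.L.Psi φ))) :=
    fun n c i j => by rw [Abs.grad, hΨ, pderiv_kp]
  let J : s.cv.C → Ideal (Oq s.L) := fun c => (mkd s.L).ii (s.L.vmark (vE s c (0, 0)))
  have hg : ∀ c, InC (R ⊔ J c) (Abs.grad Ψ (s.nv (xx s.L) A) c -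
      (-2 * Letters.sg (s.col c, s.cv.ins c)) • lg (h c)) := by
    intro c i j
    have h1 := (hW (s.col c, s.cv.ins c)).2 (some ⟨c, rfl⟩) i j
    rw [mkl_some s.L (s.col c, s.cv.ins c) ⟨c, rfl⟩, s.H_some hp ha] at h1
    have h2 : (at0U (renU (prm (s.col c, s.cv.ins c)) (s.HR A c (s.cv.ins c))) : M2 (Oq s.L)) =
        h c := at0_renM _ _
    rw [h2] at h1
    rw [Matrix.sub_apply, hgr, vE, pderiv_Psi, val_smul, val_inc, Matrix.smul_apply]
    exact aux1 _ h1
  have hv : Abs.val (s.nv (xx s.L) A) Ψ - ∑ c, (⁅s.nv (xx s.L) A c, h c⁆ * w c).trace ∈ R ^ 2 := by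
    rw [hΨ, Letters.Psi, map_sum, map_sum]
    simp only [val_smul, val_inc]
    exact aux2 _ hw2 fun l => (hW l).1
  obtain ⟨n', h1, h2, h3, h4⟩ := absorb' ha Ψ (fun c => (s.L.Low (vE s c (0, 0))).map (pr s.L)) J
    (fun c => Ideal.map_mono (Low_le _ _)) (fun c => (mkd s.L).sq _) (fun c => (mkd s.L).le _)
    (s.nv (xx s.L) A) h w _ (fun c => mul_ne_zero (by norm_num) (sg_ne _)) (nv_low s A) hh1 R rfl
    hg hw1 hv
  choose lift hl1 hl2 using fun c a b =>
    (Ideal.mem_map_iff_of_surjective _ (pr_surj s.L)).1 (h1 c a b)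
  let ñ : s.L.Var → s.L.P := fun v => v.2.1.elim 0 fun c => lift c.1 v.2.2.1 v.2.2.2
  have hsub : ∀ f, pr s.L (s.L.sub ñ f) = Abs.val n' (kp s f) :=
    pr_sub s n' ñ (fun v hv => by simp only [ñ, hv]; rfl) fun c b => hl2 c b.1 b.2
  set d := (s.L.DD φ ñ ⊔ s.L.II (Sum.inl 1)).map (pr s.L) with hd
  have hmk : ∀ c b, s.L.vmark (vE s c b) = Sum.inl (s.cv.labS (s.shS c (s.cv.ins c)))⁻¹ :=
    fun c b => cmark_side s c _
  have hRd : R ≤ d := by
    rw [← h3]
    refine Abs.MM_le Ψ fun c => ?_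
    have h5 : J c * Ideal.span {f | ∃ i j, f = Abs.grad Ψ n' c i j} ≤ d := by
      simp only [J, mkd, Letters.II]
      rw [Ideal.map_span, Ideal.span_mul_span', Ideal.span_le]
      rintro _ ⟨_, ⟨_, ⟨v, hv, rfl⟩, rfl⟩, _, ⟨i, j, rfl⟩, rfl⟩
      change pr s.L (X v) * Abs.grad Ψ n' c i j ∈ d
      rw [hgr, ← hsub, ← map_mul]
      exact Ideal.mem_map_of_mem _ (Ideal.mem_sup_left (Ideal.subset_span
        ⟨vE s c (j, i), _, vown_vE s c _, hmk c _, Or.inl ⟨v, hv.trans (hmk c _), rfl⟩⟩))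
    exact InC.mono h5 (inC_lie ((h1 c).mono (Ideal.map_mono (Low_le _ _)))
      fun i j => Ideal.subset_span ⟨i, j, rfl⟩)
  have hId : (mkd s.L).ii (Sum.inl 1) ≤ d := Ideal.map_mono le_sup_right
  have sm : ∀ {b : Ideal (Oq s.L)} {y : M2 (Oq s.L)} (r : ℚ), InC b y → InC b (r • y) :=
    fun r hy => by
      rw [← algebraMap_smul (Oq s.L)]
      exact hy.smul _
  have hroot := s.root_hol (mkd s.L) hx hp hs d hRd hId fun c hc => by
    refine inC_of_lg ha (hh1 c) ?_
    have e1 : s.L.vmark (vE s c (0, 0)) = Sum.inl 1 := by rw [hmk, hc, labS_root, inv_one]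
    have a1 : InC d (Abs.grad Ψ n' c) := fun i j => by
      rw [hgr, ← hsub]
      exact Ideal.mem_map_of_mem _ (Ideal.mem_sup_left (Ideal.subset_span
        ⟨vE s c (j, i), 1, vown_vE s c _, e1, Or.inr ⟨rfl, rfl⟩⟩))
    have a2 : InC d (Abs.grad Ψ n' c - Abs.grad Ψ (s.nv (xx s.L) A) c) :=
      InC.mono hRd (Abs.grad_sub Ψ h2 c)
    have a3 := (hg c).mono (sup_le hRd (by simp only [J, e1]; exact hId))
    have a4 := sm (-2 * Letters.sg (s.col c, s.cv.ins c))⁻¹ ((a1.sub a2).sub a3)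
    rwa [sub_sub_cancel, sub_sub_cancel, smul_smul,
      inv_mul_cancel₀ (mul_ne_zero (by norm_num) (sg_ne _)), one_smul] at a4
  obtain ⟨e, he, hc⟩ := s.root_comm (mkd s.L) hx hp hs d hRd hroot
  let k : Lg → ℚ := fun l => if l.2 then 1 else -1 / 2
  have hz : ∀ l, InC d (k l • (pr s.L).mapMatrix (s.L.zM φ ñ l) - s.zz (xx s.L) A B l) := by
    rintro ⟨i, _ | _⟩ a b
    · have b1 := (hW (i, false)).2 none a b
      have b2 : Abs.val n' (kp s (s.L.inc (i, false) (pderiv (none, (b, a)) (φ i)))) -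
          Abs.val (s.nv (xx s.L) A) (kp s (s.L.inc (i, false) (pderiv (none, (b, a)) (φ i)))) ∈ R :=
        Abs.eval_sub_mem R (x := fun v : s.cv.C × I2 => s.nv (xx s.L) A v.1 v.2.1 v.2.2)
          (y := fun v => n' v.1 v.2.1 v.2.2) (fun v => h2 v.1 v.2.1 v.2.2) _
      rw [← hsub, val_inc] at b2
      have b3 := Ideal.mul_mem_left d (algebraMap ℚ _ (-1 / 2))
        (d.add_mem (hRd b2) (sup_le hRd bot_le b1))
      refine (congrArg (· ∈ d) ?_).mp b3
      change _ = (-1 / 2 : ℚ) • pr s.L (s.L.sub ñ (s.L.inc (i, false)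
        (pderiv (none, (b, a)) (φ i)))) - s.zz (xx s.L) A B (i, false) a b
      change algebraMap ℚ _ (-1 / 2) * (_ - evX (s.Xv (xx s.L) A (i, false)) _ +
        (_ + 2 * s.zz (xx s.L) A B (i, false) a b)) = _
      have b4 : algebraMap ℚ (Oq s.L) (-1 / 2) * 2 = -1 := by
        rw [← map_ofNat (algebraMap ℚ (Oq s.L)) 2, ← map_mul]
        norm_num
      rw [Algebra.smul_def]
      linear_combination (s.zz (xx s.L) A B (i, false) a b) * b4
    · have : pr s.L (s.L.zM φ ñ (i, true) a b) = xx s.L (i, true) none a b := by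
        change pr s.L (s.L.sub ñ (s.L.inc (i, true) (X (none, (a, b))))) = _
        rw [Letters.inc, rename_X, Letters.sub, aeval_X]
        rfl
      change (1 : ℚ) • pr s.L (s.L.zM φ ñ (i, true) a b) - xx s.L (i, true) none a b ∈ d
      rw [one_smul, this, sub_self]
      exact d.zero_mem
  have hζ : ∀ i, InC d ((pr s.L).mapMatrix (s.L.zeta φ ñ (fun l => e l * k l) i) -
      (e (i, true) • s.zz (xx s.L) A B (i, true) + e (i, false) • s.zz (xx s.L) A B (i, false))) := by
    intro i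
    have := (sm (e (i, true)) (hz (i, true))).add (sm (e (i, false)) (hz (i, false)))
    rw [Letters.zeta, map_add, map_rat_smul, map_rat_smul, mul_smul, mul_smul, add_sub_add_comm,
      ← smul_sub, ← smul_sub]
    exact this
  have hZ : ∀ i, s.ZI (xx s.L) A B i ≤ (s.L.ZZ φ ñ i).map (pr s.L) ⊔ d := by
    intro i
    rw [Setup.ZI, Ideal.span_le]
    rintro _ ⟨t, a, b, rfl⟩
    have b1 : InC ((s.L.ZZ φ ñ i).map (pr s.L)) ((pr s.L).mapMatrix (s.L.zM φ ñ (i, t))) :=
      fun a b => Ideal.mem_map_of_mem _ (Ideal.subset_span ⟨t, a, b, rfl⟩)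
    have b2 := ((sm (k (i, t)) b1).mono le_sup_left).sub ((hz (i, t)).mono le_sup_right)
    rw [sub_sub_cancel] at b2
    exact b2 a b
  refine ⟨φ, ñ, fun l => e l * k l, hφ, fun l => mul_ne_zero (he l) ?_, fun v hv => ?_, ?_,
    fun a b => ?_⟩
  · simp only [k]
    split_ifs <;> norm_num
  · rcases env_cases s hv with h5 | ⟨c, b, rfl⟩
    · simp only [ñ, h5]
      exact Ideal.zero_mem _
    · exact hl1 c b.1 b.2
  · rw [← pr_eq_zero, hsub]
    exact h4
  · rw [sup_assoc (_ * _)]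
    refine mem_of_pr s.L ?_
    rw [Ideal.map_sup, Ideal.map_mul, Ideal.map_mul, Ideal.map_mul, ← hd]
    have b1 := ((lie3_sub (hζ 0) (hζ 1) (hζ 2)).mono le_sup_right).add (hc.mono (sup_le
      (mul_le_sup (mul_le_sup (mul_le_sup le_sup_left (hZ 0)) (hZ 1)) (hZ 2)) le_sup_right))
    rw [sub_add_cancel] at b1
    rw [Ring.lie_def, Ring.lie_def, ← map_mul, ← map_mul, ← map_sub, ← map_mul, ← map_mul,
      ← map_sub] at b1
    exact b1 a b

end Setup
end Vale.Agent.P215Z
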