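import Vale.Agent.P215Z.Reg.Sheet
import Vale.Agent.P215Z.Reg.Cl.B

noncomputable section
namespace Vale.Agent.P215Z
open MvPolynomial Classical

namespace R2b
variable {O : Type} [CommRing O] [Algebra ℚ O]

theorem good_zero (K : Set Pt) : Good2 K (0 : F2 O) :=
  ⟨fun _ _ _ _ _ _ => neg_zero.symm, fun _ _ _ _ j _ _ _ => pd_zero j,
    fun _ _ k c _ _ _ _ _ _ _ => (evM_zero k c).symm⟩

theorem JJ_good {a : Ideal O} (ha : IsNilpotent a) {K : Set Pt} (hK : Cx K) {A : F1 O}
    (hA : Good1 K A) (hA' : In1 K a A) {ι : Type} [Fintype ι] (it : ι → Item O)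
    (hv : ∀ y, (it y).o ≠ 0 → (it y).Valid) : Good2 K (JJ A it) := by
  refine Good2.sum _ _ fun y _ => ?_
  by_cases h : (it y).o = 0
  · rw [Item.J_of_o A _ h]; exact good_zero K
  · exact Item.J_good ha hK hA hA' _ (hv y h)

theorem upd_face {p : Pt} {k : Fin 4} (hk : k ≠ 3) (c : Bool) :
    Function.update (face p k c) 3 0 = face (Function.update p 3 0) k c := by
  rw [face, face, Function.update_of_ne hk, Function.update_comm hk]

theorem even_upd {p : Pt} {j : Fin 4} (hj : Even (p j)) : Even (Function.update p 3 0 j) := by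
  by_cases h : j = 3
  · rw [h, Function.update_self]; exact Even.zero
  · rwa [Function.update_of_ne h]

theorem cov_zero (A : F1 O) (p : Pt) (k : Fin 4) : cov A p k 0 = 0 := by
  rw [cov, pd_zero, Ring.lie_def, mul_zero, zero_mul, sub_zero, add_zero]

end R2b

open R2b

namespace Setup
variable (s : Setup) {O : Type} [CommRing O] [Algebra ℚ O] (m : Marked O Mk)
  {x : ∀ l : Lg, Option (s.L.C l.1) → M2 O}
  (hx : ∀ l c, s.L.cown l c = true → InC (m.ii (s.L.cmark l c)) (x l c))
  {A B : F1 O} (hp : s.Pair m.a A B)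

/-! R2b: the currents are compatible and closed -/
include hp in
theorem JR_good : Good2 (KR s.D.N) (s.JR x A) :=
  JJ_good m.nil (cx_Kof _) hp.gA hp.iA _ (s.itR_valid x A)
include hp in
theorem JB_good : Good2 (KB s.D.N) (s.JB x B) := by
  have h := JJ_good m.nil (cx_Kof _) hp.gB hp.iB _ fun y _ => itB_valid s x B y
  refine ⟨fun p hp i i' hi hi' => ?_, fun p hp i i' j hi hi' hj => ?_,
    fun p hp k c i i' hk hi hi' h1 h2 => ?_⟩
  · simp only [JB, or_comm (a := i' = 3)]
    split_ifs with e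
    · exact neg_zero.symm
    · rw [not_or] at e
      exact h.anti _ (upd_KB hp) i i' (by rwa [Function.update_of_ne e.1])
        (by rwa [Function.update_of_ne e.2])
  · simp only [JB]
    split_ifs with e
    · exact pd_zero j
    · rw [not_or] at e
      exact h.indep _ (upd_KB hp) i i' j (by rwa [Function.update_of_ne e.1])
        (by rwa [Function.update_of_ne e.2]) (even_upd hj)
  · simp only [JB]
    split_ifs with e
    · exact (evM_zero k c).symm
    · rw [not_or] at e
      have o1 : Odd (Function.update p 3 0 i) := by rwa [Function.update_of_ne e.1]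
      have o2 : Odd (Function.update p 3 0 i') := by rwa [Function.update_of_ne e.2]
      by_cases h3 : k = 3
      · subst h3
        rw [face, Function.update_idem]
        refine (evM_of_pd (h.indep _ (upd_KB hp) i i' 3 o1 o2 ?_) c).symm
        rw [Function.update_self]; exact Even.zero
      · rw [upd_face h3]
        exact h.compat _ (upd_KB hp) k c i i' (by rwa [Function.update_of_ne h3]) o1 o2 h1 h2
theorem JB_inv (B : F1 O) : Inv2 (s.JB x B) := by
  intro p i j
  simp only [JB, Function.update_idem]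
  split_ifs <;> rfl
theorem JR_KS (A : F1 O) : Agree2 (KS s.D.N) (s.JR x A) 0 := by
  intro p hp i j _ _
  rw [JR, JJ_apply]
  refine Finset.sum_eq_zero fun y _ => by_contra fun h => ?_
  have ho : (s.itR x A y).o ≠ 0 := fun h0 => h (by rw [Item.J_of_o A _ h0]; rfl)
  exact s.star_KS x A y ho (Item.face_of_J A _ (s.itR_valid x A y ho) h).1 hp
theorem JB_KS (B : F1 O) : Agree2 (KS s.D.N) (s.JB x B) 0 := by
  intro p hp i j _ _
  rw [JB]
  split_ifs
  · rfl
  rw [JJ_apply]
  refine Finset.sum_eq_zero fun y _ => by_contra fun h => ?_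
  obtain ⟨z, h1, h2, h3⟩ := star_col s x B y (Item.face_of_J B _ (itB_valid s x B y) h).1
  exact col_not_KR s.D.hN (fun j hj => by rw [← h3 j hj, Function.update_of_ne hj]) h1 h2 hp.1.1
include hx in
theorem _root_.Vale.Agent.P215Z.R2b.itR_mem (A : F1 O) (y : s.cv.S × (sqs s.D.M)) :
    InC (m.ii (s.mkS y.1)) (s.itR x A y).Y :=
  InI.at0 (InC.Ad ((inI_cst _ _).2 (s.src_mem m hx y.1)) _)
include hx in
theorem JR_in (A : F1 O) : In2 (KR s.D.N) m.a (s.JR x A) := by
  intro p _ i j _ _
  rw [JR, JJ_apply]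
  exact InC.sum _ _ fun y _ => (Item.J_inI A _ (itR_mem s m hx A y) p i j).mono (m.le _)
include hx in
theorem JB_in (B : F1 O) : In2 (KB s.D.N) m.a (s.JB x B) := by
  intro p _ i j _ _
  rw [JB]
  split_ifs
  · exact InC.zero
  rw [JJ_apply]
  exact InC.sum _ _ fun y _ => (Item.J_inI B _ (Yv_mem s m hx B y.1 y.2) _ i j).mono (m.le _)
include hx hp
theorem JR_closed {b : Ideal O} (hs : In2 (KR s.D.N) b (curv A - s.JR x A)) :
    In3 (KR s.D.N) (s.MR x A ⊔ m.a * b) (dA2 A (s.JR x A)) := by
  have h := JJ_closed m.nil (cx_Kof _) hp.gA hp.iA (s.itR x A) (fun y => s.mkS y.1) m.ii m.sq m.le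
    (b := b) (c := s.MR x A ⊔ m.a * b) (s.itR_valid x A) (itR_mem s m hx A)
    (fun y ho τ hτ hst => by
      obtain ⟨f, r, hf, f1, -, hc, rfl⟩ := s.star_face x A y ho hst hτ
      rw [← f1]
      exact FlatAt.face (cx_Kof _) hp.gA (s.cube_mem hf) (s.flat_cube m hx hp hs hf)
        (s.isFace_cube hf hc))
    fun θ hθ => hclR s θ m hx hp hs hθ
  rwa [sup_assoc, sup_idem] at h
theorem JB_closed {b : Ideal O} (hs : In2 (KB s.D.N) b (curv B - s.JB x B)) :
    In3 (KB s.D.N) (m.a * b) (dA2 B (s.JB x B)) := by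
  have hK : Cx (KB s.D.N ∩ {p | p 3 = 0}) := fun p hp k c hk =>
    ⟨cx_Kof _ p hp.1 k c hk, by
      have h0 : p 3 = 0 := hp.2
      have h1 : (3 : Fin 4) ≠ k := by
        rintro rfl
        rw [h0] at hk
        exact absurd hk (by decide)
      exact (face_ne h1).trans h0⟩
  have h := JJ_closed m.nil hK ⟨fun p h => hp.gB.indep p h.1, fun p h => hp.gB.compat p h.1⟩
    (fun p h => hp.iB p h.1) (s.itB x B) (fun y => Sum.inr (y.1, true)) m.ii m.sq m.le
    (b := b) (c := m.a * b) (fun y _ => itB_valid s x B y) (fun y => Yv_mem s m hx B y.1 y.2)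
    (fun y _ τ hτ hst => flatB s m hx hs y hτ.1 hτ.2 hst) fun θ hθ => hclB s m hx hp hs hθ.1 hθ.2
  rw [sup_idem] at h
  have g := JJ_good m.nil (cx_Kof _) hp.gB hp.iB _ fun y _ => itB_valid s x B y
  intro p hp' i j k hi hj hk hij hjk hik
  have z : ∀ i j, Odd (p i) → Odd (p j) → cov B p 3 (s.JB x B p i j) = 0 := by
    intro i j hi hj
    rw [cov, hp.inv p 3, if_pos rfl, Ring.lie_def, mul_zero, zero_mul, sub_zero, add_zero, JB]
    split_ifs with e
    · exact pd_zero 3
    · rw [not_or] at e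
      refine g.indep _ (upd_KB hp') i j 3 (by rwa [Function.update_of_ne e.1])
        (by rwa [Function.update_of_ne e.2]) ?_
      rw [Function.update_self]; exact Even.zero
  have z1 : ∀ i, s.JB x B p i 3 = 0 := fun i => if_pos (Or.inr rfl)
  have z2 : ∀ i, s.JB x B p 3 i = 0 := fun i => if_pos (Or.inl rfl)
  by_cases h1 : i = 3
  · subst h1
    rw [dA2, z j k hj hk, z1, z2, cov_zero, cov_zero, add_zero, add_zero]; exact InC.zero
  by_cases h2 : j = 3
  · subst h2
    rw [dA2, z k i hk hi, z1, z2, cov_zero, cov_zero, add_zero, add_zero]; exact InC.zero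
  by_cases h3 : k = 3
  · subst h3
    rw [dA2, z i j hi hj, z1, z2, cov_zero, cov_zero, add_zero, add_zero]; exact InC.zero
  have e : ∀ l, l ≠ 3 → ∀ w, cov B p l w = cov B (Function.update p 3 0) l w := fun l hl w => by
    rw [cov, cov, hp.inv p l, if_neg hl]
  have h4 := h _ ⟨upd_KB hp', Function.update_self ..⟩ i j k (by rwa [Function.update_of_ne h1])
    (by rwa [Function.update_of_ne h2]) (by rwa [Function.update_of_ne h3]) hij hjk hik
  simp only [dA2, JB, h1, h2, h3, or_self, if_false, e i h1, e j h2, e k h3]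
  exact h4

end Setup
end Vale.Agent.P215Z
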